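import Vale.Agent.P070ZD.Main
import Vale.Agent.P070ZE.Kad
import Vale.Agent.P070ZO.Fin
import Vale.Agent.P070ZS5.Step5
import Vale.Agent.P070ZI.Up

/-!
# The counterexample exists in every model
-/

namespace Vale.Agent.P070Z

open Vale.Agent.P129B Vale.Agent.P129Z.S

universe v

theorem allMain (N : Type v) [ZM N] : P070ZI.AllMain N :=
  fun R K _ _ _ _ _ _ _ _ _ _ _ _ _ => main_of_rows N R K
    (fun _ _ _ _ _ _ _ _ _ _ _ _ _ _ _ _ _ _ _ hA hπ hi hη y o => Kad.kadison hA hπ hi hη y o)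
    (fun _ _ _ _ _ _ _ _ _ _ _ _ _ _ _ _ _ _ _ _ _ _ hP hU hA C i1 i2 =>
      let ⟨u, h1, h2, _, h3⟩ := key_construction hP hU hA C i1 i2
      ⟨u, h1, h2, h3⟩)
    fun _ _ _ _ _ _ _ _ _ _ _ _ _ _ _ _ _ _ _ _ _ _ _ _ _ _ _ hP hU hA hπ =>
      ⟨fun _ hk pk _ ha _ hc => S5.det_transfer hU hP hA hπ hk pk ha hc,
        fun _ hk0 _ hk p0 pk hD nI _ h0 hη => S5.step5 hU hP hA hπ hk0 hk p0 pk hD nI hη h0⟩

/-- Every model of ZFC has a counterexample. -/
theorem counter {M : Type v} {E : M → M → Prop} (hE : IsZFCModel E) : Counter E :=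
  P070ZI.counter_of_allMain (fun N _ => allMain N) hE

end Vale.Agent.P070Z
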