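import Vale.Agent.P070ZC.Sip

/-!
# Symmetric contractions which are bounded below
-/

set_option linter.unusedSectionVars false

namespace Vale.Agent.P129B

variable {R : Type*} [Field R] [LinearOrder R] [IsStrictOrderedRing R]
  {K : Type*} [Field K] [Algebra R K] [Nm K R] [KA R K]
  {V : Type*} [AddCommGroup V] [Module K V]

/-- If `T` is a symmetric contraction and `e * s v ≤ s (T v)`, then `1 - T T` shrinks `v`. -/
theorem SIP.gap {ip : V → V → K} {s : V → R} (h : SIP ip s) {T : V → V}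
    (hs : ∀ x y, ip (T x) y = ip x (T y)) (hn : ∀ x, s (T x) ≤ s x) {e : R} (h0 : 0 ≤ e)
    (h1 : e ≤ 1) {v : V} (hv : e * s v ≤ s (T v)) :
    s (v - T (T v)) ≤ (1 - e ^ 2 / 2) * s v := by
  have a1 := h.sq_add v (-T (T v))
  rw [h.neg, map_neg, h.s_neg, ← hs, ← h.sq, ← sub_eq_add_neg] at a1
  have a2 := hn (T v)
  have a3 := h.nonneg (T (T v))
  have a4 := h.nonneg v
  have a5 : 0 ≤ e * s v := mul_nonneg h0 a4
  have a6 : s (T (T v)) ^ 2 ≤ s (T v) ^ 2 := pow_le_pow_left₀ a3 a2 2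
  have a7 : (e * s v) ^ 2 ≤ s (T v) ^ 2 := pow_le_pow_left₀ a5 hv 2
  have a8 : 0 ≤ 1 - e ^ 2 / 2 := by nlinarith
  refine le_of_sq_le_sq ?_ (mul_nonneg a8 a4)
  have a9 : 0 ≤ (e ^ 2 * s v) ^ 2 := sq_nonneg _
  nlinarith

end Vale.Agent.P129B
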