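import Vale.Agent.P070ZA.Defs
import Vale.Agent.P070ZD.Gap
import Vale.Agent.P070ZU.Ultra

/-!
# Kernel vectors in irreducible representations of the limit algebra
-/

set_option linter.unusedSectionVars false

namespace Vale.Agent.P070Z

open Vale.Agent.P129B Vale.Agent.P070ZT

universe v

variable {N : Type v} [ZM N]
  {R K : Type*} [Nm K R] [Field R] [LinearOrder R] [IsStrictOrderedRing R]
  [Field K] [Algebra R K] [KA R K] [StarRing K] [CX R K] [Coded N R] [RF N R] [Coded N K]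
  [KF N R K] {H : Type*} [AddCommGroup H] [Module K H] [Nm H R] [Ip H K] [IA R K H] [Coded N H]
  [HS N R K H] {L : Type*} [AddCommGroup L] [Module K L] [Nm L R] [Ip L K] [IA R K L] [Coded N L]
  [HS N R K L] {M : Type*} [AddCommGroup M] [Module K M] [Nm M R] [Ip M K] [IA R K M] [Coded N M]
  [HS N R K M]

/-- the conclusion of the key construction -/
def KeyOut (P : Op N K H → Op N K L) (A : Set (Op N K H)) (k1 k2 : Op N K H) : Prop :=
  ∃ u : Op N K H, Un u ∧ u * k1 ∈ A ∧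
    (∀ T : Op N K H, (∀ a ∈ A, T * a = a * T) → T * u = u * T) ∧
    (∀ z, P k1 z = 0 → P k2 (P u z) = 0) ∧ ∀ z, P k2 z = 0 → P k1 (P (star u) z) = 0

/-- bounds on the orbit of `ξ` pass to `π` -/
def Fac (P : Op N K H → Op N K L) (A : Set (Op N K H)) (ξ : L) (π : Op N K H → Op N K M) : Prop :=
  ∀ a ∈ A, ∀ C : R, 0 ≤ C → (∀ b ∈ A, nm (P a (P b ξ)) ≤ C * nm (P b ξ)) →
    ∀ y, nm (π a y) ≤ C * nm y

include R K

variable {A A0 : Set (Op N K H)} {P : Op N K H → Op N K L} {π : Op N K H → Op N K M}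
  {k k0 U : Op N K H}

theorem URp.one_sub (hπ : URp A π) (hA : CS N K A) (hk : k ∈ A) (v : M) :
    π (1 - k * k) v = v - π k (π k v) := by
  rw [hπ.toRp.sub hA hA.one (hA.mul k hk k hk), Op.sub_apply, hπ.one_apply,
    hπ.toRp.mul_apply hk hk]

theorem URp.gap (hπ : URp A π) (hA : CS N K A) (hk : k ∈ A) (hs : star k = k) (hn : nm k ≤ 1)
    {e : R} (h0 : 0 ≤ e) {v : M} (hv : e * nm v ≤ nm (π k v)) :
    nm (π (1 - k * k) v) ≤ (1 - min e 1 ^ 2 / 2) * nm v := by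
  rw [hπ.one_sub hA hk]
  refine sip_ip.gap (T := fun x => π k x) (fun x y => ?_) (fun x => ?_) (le_min h0 zero_le_one)
    (min_le_right _ _) ((mul_le_mul_of_nonneg_right (min_le_left _ _) (nm_nonneg v)).trans hv)
  · rw [← hπ.toRp.ip_star_left hk, hs]
  · exact (hπ.bd k hk x).trans (mul_le_of_le_one_left (nm_nonneg x) hn)

omit K in
theorem gap_const {e : R} (h : 0 < e) : 0 ≤ 1 - min e 1 ^ 2 / 2 ∧ 1 - min e 1 ^ 2 / 2 < 1 := by
  have h1 : 0 < min e 1 := lt_min h one_pos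
  have h2 : min e 1 ≤ 1 := min_le_right _ _
  constructor <;> nlinarith

theorem URp.not_shrink (hπ : URp A π) (hA : CS N K A) (hk : k ∈ A) {η : M} (hη : η ≠ 0)
    (hkη : π k η = 0) {C : R} (hC : C < 1) : ¬ nm (π (1 - k * k) η) ≤ C * nm η := by
  rw [hπ.one_sub hA hk, hkη, map_zero, sub_zero]
  have := nm_pos_iff.2 hη
  nlinarith

/-- A kernel vector in some representation gives one in the ultrapower. -/
theorem exists_ker_of_rep (hP : IsUltraRep P) (hA : CS N K A) (hπ : URp A π) (hk : k ∈ A)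
    (hs : star k = k) (hn : nm k ≤ 1) {η : M} (hη : η ≠ 0) (hkη : π k η = 0) :
    ∃ ζ : L, nm ζ = 1 ∧ P k ζ = 0 := by
  refine hP.exists_ker fun ε hε => ?_
  by_contra hc
  push Not at hc
  refine hπ.not_shrink hA hk hη hkη (gap_const hε).2 ((hπ.bd _ (hA.sub _ hA.one _
    (hA.mul k hk k hk)) η).trans (mul_le_mul_of_nonneg_right ?_ (nm_nonneg η)))
  refine Op.opNorm_le (gap_const hε).1 fun x => urp_id.gap hA hk hs hn hε.le ?_
  rcases eq_or_ne x 0 with rfl | hx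
  · simp
  · exact (hc x hx).le

theorem Fac.full {ξ : L} (h : Fac P A ξ π) (hP : URp A P) (hA : CS N K A) (hπ : URp A π) (hk : k ∈ A)
    (hs : star k = k) (hn : nm k ≤ 1) {η : M} (hη : η ≠ 0) (hkη : π k η = 0) :
    Full P k A ξ := by
  intro ε hε
  by_contra hc
  push Not at hc
  refine hπ.not_shrink hA hk hη hkη (gap_const hε).2
    (h _ (hA.sub _ hA.one _ (hA.mul k hk k hk)) _ (gap_const hε).1 (fun b hb => ?_) η)
  refine hP.gap hA hk hs hn hε.le ?_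
  rcases eq_or_ne (P b ξ) 0 with e | hx
  · simp [e]
  · exact (hc b hb hx).le

theorem IsBase.inj_of_det (hB : IsBase P A0 k0 U) (hU : IsUltraRep P) (h0 : A0 ⊆ A)
    (hc : Com U k) (hd : Det P k A) (x : H) (hx : k x = 0) : x = 0 := by
  obtain ⟨j, hj1, hj2⟩ := hU.exists_const
  have hj0 : j 0 = 0 := ip_self_eq_zero.1 (by rw [hj1, ip_zero_left])
  refine hB.inj k hc (fun a ha => ?_) x hx
  obtain ⟨c, hc⟩ := hd a (h0 ha)
  refine ⟨c, fun z w hz hw => ?_⟩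
  have := hc (j z) (j w) (by rw [hj2, hz, hj0]) (by rw [hj2, hw, hj0])
  rwa [hj2, hj1, hj1] at this

/-- Representations which factor through the orbit of `ξ` have a vector killed by `k0`. -/
theorem ker_of_irred (hB : IsBase P A0 k0 U) (hU : IsUltraRep P) (hP : URp A P) (hA : CS N K A)
    (h0 : A0 ⊆ A) (hcom : ∀ a ∈ A, Com U a) (hdet : Det P k0 A)
    (hmax : ¬ ∃ k u, Good P k0 U A k u) {ξ : L} (hξ : nm ξ = 1) (hξk : P k0 ξ = 0)
    (hπ : URp A π) (hfac : Fac P A ξ π) {η : M} (hη : η ≠ 0) (hk : k ∈ A) (hp : Pos k)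
    (hn : nm k ≤ 1) (hkη : π k η = 0) (hd : Det P k A)
    (key : ∀ ζ, Conf P A k0 k ξ ζ → (∀ x, k0 x = 0 → x = 0) → (∀ x, k x = 0 → x = 0) →
      KeyOut P A k0 k)
    (five : ¬ Ineq P k0 k A → ∃ y : M, y ≠ 0 ∧ π k0 y = 0) : ∃ y : M, y ≠ 0 ∧ π k0 y = 0 := by
  refine five fun hI => hmax ?_
  have hk0 := h0 hB.k_mem
  obtain ⟨ζ, hζ, hζk⟩ := exists_ker_of_rep hU hA hπ hk hp.1 hn hη hkη
  have hζ0 : ζ ≠ 0 := nm_pos_iff.1 (hζ ▸ one_pos)
  obtain ⟨u, hu, huk, hc, hm, hm'⟩ := key ζ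
    ⟨hk0, hk, hB.k_pos, hp, hB.k_nm, hn, hdet, hd, hI, hξ, hζ, hξk, hζk,
      hfac.full hP hA hπ hk hp.1 hn hη hkη, (hB.full ζ hζ0).mono h0⟩
    (hB.inj_of_det hU h0 (hcom k0 hk0) hdet) (hB.inj_of_det hU h0 (hcom k hk) hd)
  exact ⟨k, u, hk, hp, hd, hI, hu,
    ⟨hc U fun a ha => (hcom a ha).1, hc (star U) fun a ha => (hcom a ha).2⟩, huk, hm, hm'⟩

end Vale.Agent.P070Z
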