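import Vale.Agent.P070ZD.Ker
import Vale.Agent.P070ZU.Rep
import Vale.Agent.P070Z72.MainOf
import Vale.Agent.P070Z56.Root
import Vale.Agent.P070ZR.Reflect
import Vale.Agent.P070ZW.Tower
import Vale.Agent.P070ZB.Base

/-!
# Assembly of the counterexample
-/

set_option linter.unusedSectionVars false

namespace Vale.Agent.P070Z

open Vale.Agent.P129B Vale.Agent.P070ZT

universe v

variable (N : Type v) [ZM N]
  (R K : Type v) [Nm K R] [Field R] [LinearOrder R] [IsStrictOrderedRing R]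
  [Field K] [Algebra R K] [KA R K] [StarRing K] [CX R K] [Coded N R] [RF N R] [Coded N K]
  [KF N R K]

/-- transitivity -/
def KAD : Prop :=
  ∀ (H : Type v) [AddCommGroup H] [Module K H] [Nm H R] [Ip H K] [IA R K H] [Coded N H]
    [HS N R K H] (L : Type v) [AddCommGroup L] [Module K L] [Nm L R] [Ip L K] [IA R K L]
    [Coded N L] [HS N R K L] (A : Set (Op N K H)) (π : Op N K H → Op N K L) (η : L),
    CS N K A → URp A π → Irr A π → nm η = 1 →
    ∀ y, ip η y = 0 → ∃ b ∈ A, π b η = y ∧ π (star b) η = 0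

/-- the key construction -/
def KEYC : Prop :=
  ∀ (H : Type v) [AddCommGroup H] [Module K H] [Nm H R] [Ip H K] [IA R K H] [Coded N H]
    [HS N R K H] (L : Type v) [AddCommGroup L] [Module K L] [Nm L R] [Ip L K] [IA R K L]
    [Coded N L] [HS N R K L] (A : Set (Op N K H)) (P : Op N K H → Op N K L) (k1 k2 : Op N K H)
    (ξ ζ : L), URp Set.univ P → IsUltraRep P → CS N K A → Conf P A k1 k2 ξ ζ →
    (∀ x, k1 x = 0 → x = 0) → (∀ x, k2 x = 0 → x = 0) → KeyOut P A k1 k2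

/-- transfer from the ultrapower to other representations -/
def FIVE : Prop :=
  ∀ (H : Type v) [AddCommGroup H] [Module K H] [Nm H R] [Ip H K] [IA R K H] [Coded N H]
    [HS N R K H] (L : Type v) [AddCommGroup L] [Module K L] [Nm L R] [Ip L K] [IA R K L]
    [Coded N L] [HS N R K L] (M : Type v) [AddCommGroup M] [Module K M] [Nm M R] [Ip M K]
    [IA R K M] [Coded N M] [HS N R K M] (A : Set (Op N K H)) (P : Op N K H → Op N K L)
    (π : Op N K H → Op N K M), URp Set.univ P → IsUltraRep P → CS N K A → URp A π →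
    (∀ k ∈ A, Pos k → ∀ a ∈ A, ∀ c : K, DetAt P k a c → DetAt π k a c) ∧
    ∀ k0 ∈ A, ∀ k ∈ A, Pos k0 → Pos k → Det P k A → ¬ Ineq P k0 k A →
      ∀ η : M, η ≠ 0 → π k η = 0 → ∃ y : M, y ≠ 0 ∧ π k0 y = 0

theorem contr : P070Z72.Contr N R K := fun _ _ _ _ _ _ _ _ _ _ _ _ _ _ _ _ _ _ hA h _ _ ha z =>
  P070Z56.rep_contr_apply ⟨hA.intl, hA.zero, hA.add, hA.mul, hA.smul, hA.star, hA.cld⟩
    h.add h.mul h.smul h.star ha z

theorem main_of_rows (kad : KAD N R K) (key : KEYC N R K) (five : FIVE N R K) :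
    P070ZI.Main N R K := by
  obtain ⟨A0, k0, U, ⟨x, hx⟩, hI, hB⟩ := P070ZB.exists_base.{v, v} N R K
  have hP := urp_urep (N := N) (K := K) (H := M98.HM N R K)
  have hU := isUltraRep_urep (N := N) (K := K) (H := M98.HM N R K)
  have B := hB _ _ hP
  obtain ⟨ξ, hξ, hξk⟩ := hU.exists_ker (k := k0) fun ε hε => by
    obtain ⟨b, -, h1, h2⟩ := hI.full x (nm_pos_iff.1 (hx ▸ one_pos)) ε hε
    exact ⟨b x, h1, h2⟩
  obtain ⟨ι, _, _, _, _, _, k, u, T, hmax⟩ := exists_maximal_tower hP B.cs U B.k_mem B.k_pos B.det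
    ⟨ξ, hξk, nm_pos_iff.1 (hξ ▸ one_pos)⟩
  have := B.cs.intl
  have := T.du.toIntl
  have hu := T.du
  have hA : CS N K (gen (A0 ∪ u '' Set.univ)) := cs_gen _
  have h0 : A0 ⊆ gen (A0 ∪ u '' Set.univ) := Set.subset_union_left.trans (sub_gen _)
  have hD := tower_det0 hP T
  have hPA := hP.mono (Set.subset_univ (gen (A0 ∪ u '' Set.univ)))
  obtain ⟨e, he, heA, h1, h2⟩ := B.inf ξ hξ hξk
  refine P070Z72.main_of_ker (contr N R K) hA hPA hξ hξk hD
    (fun L _ _ _ _ _ _ _ π hπ => (five _ _ L _ _ π hP hU hA hπ).1 k0 (h0 B.k_mem) B.k_pos)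
    (fun L _ _ _ _ _ _ _ π hπ ⟨y, hy⟩ hi hf => ?_) (DefF.ofIntl e) (fun n => h0 (heA n)) h1 h2
  have hη := nm_normalize (K := K) hy
  have hη0 := nm_pos_iff.1 (hη ▸ one_pos)
  obtain ⟨κ, hκ, hp, hn, hκη, hd⟩ := reflect_of hP B.sep T hπ hη (kad _ L _ π _ hA hπ hi hη)
    fun Tc S g _ _ hT hS hg hd => tower_ext hP T hT hS hg hd
  exact ker_of_irred B hU hPA hA h0 (tower_com T B.com _) hD hmax hξ hξk hπ hf hη0 hκ hp hn hκη hd
    (fun ζ C => key _ _ _ _ _ _ _ ζ hP hU hA C)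
    fun hI => (five _ _ L _ _ π hP hU hA hπ).2 k0 (h0 B.k_mem) κ hκ B.k_pos hp hd hI _ hη0 hκη

end Vale.Agent.P070Z
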